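import Vale.Agent.P028.Overlap.Interval

/-! Products of the local factors. -/

noncomputable section

namespace Vale.Agent.P028

open Finset

/-- The primes of `q` or of `r`. -/
def pairPrimes (q r : ℕ) : Finset ℕ := q.primeFactors ∪ r.primeFactors

theorem prime_of_mem_pairPrimes {q r p : ℕ} (h : p ∈ pairPrimes q r) : p.Prime := by
  rcases mem_union.1 h with h | h <;> exact Nat.prime_of_mem_primeFactors h

theorem prod_lwAvg_pairPrimes {q r : ℕ} (hq : 0 < q) (hr : 0 < r) :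
    ∏ p ∈ pairPrimes q r, lwAvg q p * lwAvg r p =
      (Nat.totient q : ℝ) / q * ((Nat.totient r : ℝ) / r) := by
  rw [prod_mul_distrib, totient_div_eq hq, totient_div_eq hr]
  congr 1
  · refine (prod_subset subset_union_left fun p hp hn => ?_).symm
    have : ¬ p ∣ q := fun h => hn (mem_primeFactors_of hq (prime_of_mem_pairPrimes hp) h)
    simp [lwAvg, this]
  · refine (prod_subset subset_union_right fun p hp hn => ?_).symm
    have : ¬ p ∣ r := fun h => hn (mem_primeFactors_of hr (prime_of_mem_pairPrimes hp) h)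
    simp [lwAvg, this]

theorem ratio_mul_one_sub {p : ℕ} (hp : p.Prime) : (1 - 1 / (p : ℝ)) * ratio p = 1 := by
  have h : (2 : ℝ) ≤ p := by exact_mod_cast hp.two_le
  have h1 : (p : ℝ) ≠ 0 := by linarith
  have h2 : (p : ℝ) - 1 ≠ 0 := by linarith
  rw [ratio]
  field_simp

theorem not_dvd_both {q r p : ℕ} (hp : p.Prime) (hq : 0 < q) (h1 : p ∣ qd q r) (h2 : p ∣ qd r q) :
    False :=
  hp.not_dvd_one (by
    have := Nat.dvd_gcd h1 h2
    rwa [Nat.Coprime.gcd_eq_one (coprime_qd hq)] at this)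

theorem sum_lw_line {A : ℤ} {B q r p : ℕ} (hp : p.Prime) (h : ¬ p ∣ qd q r) (a0 : ℤ) :
    ∑ i ∈ range p, lw A B q p (a0 + (qd q r : ℤ) * i) = p * lwAvg q p :=
  sum_lw_affine A B q hp (fun hd => h (Int.natCast_dvd_natCast.1 hd)) a0

/-- The coincidence number as a combination of the two deleted forms. -/
theorem zform_eq {A : ℤ} {B q r : ℕ} {n : ℤ} (a b : ℤ)
    (h : (qd r q : ℤ) * a - (qd q r : ℤ) * b = n) :
    zform A B q r n = (qd r q : ℤ) * (a * B + A) - (qd q r : ℤ) * (b * B + A) := by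
  rw [← h, zform, mdiff]
  ring

/-- The local bound on a line, for two bumps with a common approximation. -/
theorem lineAvg_le {A : ℤ} {B q r : ℕ} (hq : 0 < q) {n : ℤ} {a0 b0 : ℤ}
    (h : (qd r q : ℤ) * a0 - (qd q r : ℤ) * b0 = n) {p : ℕ} (hp : p.Prime)
    (hpT : p ∣ q ∨ p ∣ r) :
    lineAvg A B A B q r a0 b0 p ≤ lwAvg q p * lwAvg r p *
      ((if p ∣ qd q r * qd r q ∧ ¬ p ∣ B then ratio p else 1) *
        (if p ∣ Nat.gcd q r ∧ ¬ p ∣ qd q r * qd r q ∧ ¬ p ∣ B ∧ (p : ℤ) ∣ zform A B q r n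
          then ratio p else 1)) := by
  have hp0 : (0 : ℝ) < p := by exact_mod_cast hp.pos
  have hr1 := ratio_mul_one_sub hp
  by_cases hB : p ∣ B
  · have e : ∀ q (a : ℤ), lw A B q p a = lwAvg q p := fun q a => by simp [lw, lwAvg, hB]
    simp only [hB, not_true, and_false, false_and, if_false, mul_one, lineAvg, e, sum_const,
      card_range, nsmul_eq_mul]
    rw [le_iff_lt_or_eq]
    right
    field_simp
  by_cases hg : p ∣ Nat.gcd q r
  · have hdq : p ∣ q := hg.trans (Nat.gcd_dvd_left q r)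
    have hdr : p ∣ r := hg.trans (Nat.gcd_dvd_right q r)
    have eq' : lwAvg q p = 1 - 1 / (p : ℝ) := by simp [lwAvg, hdq]
    have er' : lwAvg r p = 1 - 1 / (p : ℝ) := by simp [lwAvg, hdr]
    have hle1 : ∀ a b : ℤ, lw A B q p a * lw A B r p b ≤ lw A B q p a := fun a b =>
      mul_le_of_le_one_right (lw_nonneg A B q hp a) (lw_le_one A B r hp b)
    have hle2 : ∀ a b : ℤ, lw A B q p a * lw A B r p b ≤ lw A B r p b := fun a b =>
      mul_le_of_le_one_left (lw_nonneg A B r hp b) (lw_le_one A B q hp a)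
    have bnd1 : ¬ p ∣ qd q r → lineAvg A B A B q r a0 b0 p ≤ 1 - 1 / (p : ℝ) := fun h' => by
      rw [lineAvg, div_le_iff₀ hp0, ← eq', mul_comm, ← sum_lw_line (A := A) (B := B) hp h' a0]
      exact sum_le_sum fun i _ => hle1 _ _
    have bnd2 : ¬ p ∣ qd r q → lineAvg A B A B q r a0 b0 p ≤ 1 - 1 / (p : ℝ) := fun h' => by
      rw [lineAvg, div_le_iff₀ hp0, ← er', mul_comm, ← sum_lw_line (A := A) (B := B) hp h' b0]
      exact sum_le_sum fun i _ => hle2 _ _
    by_cases hd : p ∣ qd q r * qd r q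
    · simp only [hd, hB, not_false_eq_true, and_self, if_true, not_true, and_false, false_and,
        if_false, mul_one, eq', er']
      rw [mul_assoc, hr1, mul_one]
      by_cases hdd : p ∣ qd q r
      · exact bnd2 fun h2 => not_dvd_both hp hq hdd h2
      · exact bnd1 hdd
    have hd1 : ¬ p ∣ qd q r := fun h' => hd (h'.mul_right _)
    have hd2 : ¬ p ∣ qd r q := fun h' => hd (h'.mul_left _)
    by_cases hZ : (p : ℤ) ∣ zform A B q r n
    · simp only [hd, hg, hB, hZ, not_false_eq_true, and_self, false_and, if_true, if_false,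
        one_mul, eq', er']
      rw [mul_assoc, hr1, mul_one]
      exact bnd1 hd1
    · simp only [hd, hZ, and_false, false_and, if_false, mul_one, eq', er', lineAvg]
      have ex : ∀ i : ℕ, lw A B q p (a0 + (qd q r : ℤ) * i) * lw A B r p (b0 + (qd r q : ℤ) * i) =
          lw A B q p (a0 + (qd q r : ℤ) * i) + lw A B r p (b0 + (qd r q : ℤ) * i) - 1 := by
        intro i
        simp only [lw, hdq, hdr, hB, if_true, if_false]
        split_ifs with h1 h2
        · refine absurd ?_ hZ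
          rw [zform_eq (a0 + (qd q r : ℤ) * i) (b0 + (qd r q : ℤ) * i) (by rw [← h]; ring)]
          exact (h1.mul_left _).sub (h2.mul_left _)
        all_goals norm_num
      rw [sum_congr rfl fun i _ => ex i, sum_sub_distrib, sum_add_distrib, sum_lw_line hp hd1,
        sum_lw_line hp hd2, eq', er', sum_const, card_range, nsmul_one, div_le_iff₀ hp0]
      field_simp
      nlinarith
  · have hg' : ¬ p ∣ Nat.gcd r q := by rwa [Nat.gcd_comm]
    have hd : p ∣ qd q r * qd r q := by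
      rcases hpT with h' | h'
      · exact (dvd_qd_of_not_dvd_gcd hp h' hg).mul_right _
      · exact (dvd_qd_of_not_dvd_gcd hp h' hg').mul_left _
    simp only [hd, hg, hB, not_false_eq_true, and_self, false_and, if_true, if_false, mul_one,
      lineAvg, lw_line_eq A B hp hg, lw_line_eq A B hp hg', sum_const, card_range, nsmul_eq_mul]
    rw [mul_div_assoc, mul_div_left_comm, div_self hp0.ne', mul_one]
    have e : lwAvg q p * lwAvg r p = 1 - 1 / (p : ℝ) := by
      have hnot : ¬ (p ∣ q ∧ p ∣ r) := fun h' => hg (Nat.dvd_gcd h'.1 h'.2)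
      rcases hpT with h' | h'
      · have n1 : ¬ p ∣ r := fun h'' => hnot ⟨h', h''⟩
        simp [lwAvg, h', n1]
      · have n1 : ¬ p ∣ q := fun h'' => hnot ⟨h'', h'⟩
        simp [lwAvg, h', n1]
    rw [e, hr1]
    exact mul_le_one₀ (lw_le_one A B q hp _) (lw_nonneg A B r hp _) (lw_le_one A B r hp _)

/-- The local factor of a residue of `n`, for two arbitrary approximations. -/
def nFac (A : ℤ) (B : ℕ) (A' : ℤ) (B' q r p i : ℕ) : ℝ :=
  (∑ z ∈ (range p ×ˢ range p).filter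
      (fun z : ℕ × ℕ => (p : ℤ) ∣ (qd r q : ℤ) * z.1 - (qd q r : ℤ) * z.2 - i),
    lw A B q p z.1 * lw A' B' r p z.2) / p

theorem sum_nFac (A : ℤ) (B : ℕ) (A' : ℤ) (B' q r : ℕ) {p : ℕ} (hp : p.Prime) :
    ∑ i ∈ range p, nFac A B A' B' q r p i = p * (lwAvg q p * lwAvg r p) := by
  have hp0 : (p : ℝ) ≠ 0 := by exact_mod_cast hp.ne_zero
  simp only [nFac, ← sum_div, sum_filter]
  rw [sum_comm]
  have e : ∀ z : ℕ × ℕ, (∑ i ∈ range p,
      if (p : ℤ) ∣ (qd r q : ℤ) * z.1 - (qd q r : ℤ) * z.2 - i then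
        lw A B q p z.1 * lw A' B' r p z.2 else 0) = lw A B q p z.1 * lw A' B' r p z.2 := by
    intro z
    have h1 := card_root hp (u := (-1 : ℤ))
      (fun h => hp.not_dvd_one (by exact_mod_cast (Int.dvd_neg.1 h)))
      ((qd r q : ℤ) * z.1 - (qd q r : ℤ) * z.2)
    have e : ∀ i : ℕ, (-1 : ℤ) * i + ((qd r q : ℤ) * z.1 - (qd q r : ℤ) * z.2) =
        (qd r q : ℤ) * z.1 - (qd q r : ℤ) * z.2 - i := fun i => by ring
    simp only [e] at h1
    rw [← sum_filter, sum_const, h1, one_smul]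
  simp only [e]
  rw [sum_product]
  simp only []
  rw [← sum_mul_sum, sum_lw A B q hp, sum_lw A' B' r hp]
  field_simp

theorem nFac_nonneg (A : ℤ) (B : ℕ) (A' : ℤ) (B' q r : ℕ) {p : ℕ} (hp : p.Prime) (i : ℕ) :
    0 ≤ nFac A B A' B' q r p i :=
  div_nonneg (sum_nonneg fun _ _ => mul_nonneg (lw_nonneg _ _ _ hp _) (lw_nonneg _ _ _ hp _))
    (Nat.cast_nonneg p)

theorem lineAvg_le_nFac (A : ℤ) (B : ℕ) (A' : ℤ) (B' : ℕ) {q r : ℕ} (hq : 0 < q) {n a0 b0 : ℤ}
    (h : (qd r q : ℤ) * a0 - (qd q r : ℤ) * b0 = n) {p : ℕ} (hp : p.Prime) :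
    lineAvg A B A' B' q r a0 b0 p ≤ nFac A B A' B' q r p (n % (p : ℤ)).toNat := by
  have hpZ : (0 : ℤ) < p := by exact_mod_cast hp.pos
  set f : ℕ → ℕ × ℕ := fun i => (((a0 + (qd q r : ℤ) * i) % (p : ℤ)).toNat,
    ((b0 + (qd r q : ℤ) * i) % (p : ℤ)).toNat) with hf
  have hinj : Set.InjOn f (range p : Set ℕ) := by
    intro i hi j hj hij
    simp only [hf, Prod.mk.injEq] at hij
    have c : ∀ u v : ℤ, ((u % (p : ℤ)).toNat = (v % (p : ℤ)).toNat) → (p : ℤ) ∣ v - u := by
      intro u v huv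
      refine Int.ModEq.dvd ?_
      have h1 := Int.toNat_of_nonneg (Int.emod_nonneg u hpZ.ne')
      have h2 := Int.toNat_of_nonneg (Int.emod_nonneg v hpZ.ne')
      exact h1.symm.trans ((congrArg (fun k : ℕ => (k : ℤ)) huv).trans h2)
    have d1 := c _ _ hij.1
    have d2 := c _ _ hij.2
    rw [add_sub_add_left_eq_sub, ← mul_sub] at d1 d2
    have d : (p : ℤ) ∣ (j : ℤ) - i := by
      by_contra hn
      have hpi := Nat.prime_iff_prime_int.1 hp
      exact not_dvd_both hp hq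
        (Int.natCast_dvd_natCast.1 ((hpi.dvd_or_dvd d1).resolve_right hn))
        (Int.natCast_dvd_natCast.1 ((hpi.dvd_or_dvd d2).resolve_right hn))
    have hi' : i < p := mem_range.1 hi
    have hj' : j < p := mem_range.1 hj
    have := Int.eq_zero_of_abs_lt_dvd d (abs_lt.2 ⟨by omega, by omega⟩)
    omega
  rw [lineAvg, nFac]
  refine div_le_div_of_nonneg_right ?_ (Nat.cast_nonneg p)
  calc ∑ i ∈ range p, lw A B q p (a0 + (qd q r : ℤ) * i) * lw A' B' r p (b0 + (qd r q : ℤ) * i) =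
      ∑ i ∈ range p, lw A B q p ((f i).1 : ℕ) * lw A' B' r p ((f i).2 : ℕ) := by
        refine sum_congr rfl fun i _ => ?_
        simp only [hf]
        rw [lw_emod A B q hp, lw_emod A' B' r hp]
    _ = ∑ z ∈ (range p).image f, lw A B q p (z.1 : ℕ) * lw A' B' r p (z.2 : ℕ) :=
        (sum_image (f := fun z : ℕ × ℕ => lw A B q p (z.1 : ℕ) * lw A' B' r p (z.2 : ℕ)) hinj).symm
    _ ≤ _ := by
      refine sum_le_sum_of_subset_of_nonneg ?_ fun z _ _ =>
        mul_nonneg (lw_nonneg _ _ _ hp _) (lw_nonneg _ _ _ hp _)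
      intro z hz
      obtain ⟨i, -, rfl⟩ := mem_image.1 hz
      have hlt : ∀ u : ℤ, (u % (p : ℤ)).toNat ∈ range p := fun u => mem_range.2 <| by
        have h1 := Int.toNat_of_nonneg (Int.emod_nonneg u hpZ.ne')
        have h2 := Int.emod_lt_of_pos u hpZ
        omega
      refine mem_filter.2 ⟨mem_product.2 ⟨hlt _, hlt _⟩, ?_⟩
      simp only [hf]
      rw [Int.toNat_of_nonneg (Int.emod_nonneg _ hpZ.ne'),
        Int.toNat_of_nonneg (Int.emod_nonneg _ hpZ.ne'),
        Int.toNat_of_nonneg (Int.emod_nonneg _ hpZ.ne'), Int.emod_def, Int.emod_def, Int.emod_def]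
      refine ⟨n / (p : ℤ) - (qd r q : ℤ) * ((a0 + (qd q r : ℤ) * i) / (p : ℤ)) +
        (qd q r : ℤ) * ((b0 + (qd r q : ℤ) * i) / (p : ℤ)), ?_⟩
      linear_combination h

theorem card_primeFactors_le {q : ℕ} (hq : 0 < q) {L : ℝ} (h : (q : ℝ) ≤ Real.exp (2 * L)) :
    (q.primeFactors.card : ℝ) ≤ 4 * L := by
  have h2 : (2 : ℝ) ^ q.primeFactors.card ≤ q := by
    have : 2 ^ q.primeFactors.card ≤ q :=
      le_trans (pow_card_le_prod _ _ 2 fun p hp => (Nat.prime_of_mem_primeFactors hp).two_le)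
        (Nat.le_of_dvd hq (Nat.prod_primeFactors_dvd q))
    exact_mod_cast this
  have h3 := Real.log_le_log (by positivity) (h2.trans h)
  rw [Real.log_pow, Real.log_exp] at h3
  have h4 : (q.primeFactors.card : ℝ) * (1 / 2) ≤ q.primeFactors.card * Real.log 2 :=
    mul_le_mul_of_nonneg_left (by linarith [Real.log_two_gt_d9]) (Nat.cast_nonneg _)
  linarith

theorem inv_prod_lwAvg_le {q r : ℕ} (T : Finset ℕ) (hT : ∀ p ∈ T, p.Prime) :
    1 ≤ Real.exp (4 * ∑ p ∈ T, 1 / (p : ℝ)) * ∏ p ∈ T, lwAvg q p * lwAvg r p := by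
  rw [mul_sum, Real.exp_sum, ← prod_mul_distrib]
  refine one_le_prod fun p hp => ?_
  obtain ⟨h1, h2⟩ := one_sub_inv_prime_mem (hT p hp)
  set u := 1 / (p : ℝ)
  have hu : 0 ≤ u := by positivity
  have hl : (1 - u) * (1 - u) ≤ lwAvg q p * lwAvg r p := by
    refine mul_le_mul ?_ ?_ (by linarith) (lwAvg_pos q (hT p hp)).le <;>
    · simp only [lwAvg]
      split_ifs <;> first | exact le_rfl | exact h2
  have he : (1 + 2 * u) * (1 + 2 * u) ≤ Real.exp (4 * u) := by
    have h := Real.add_one_le_exp (2 * u)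
    calc (1 + 2 * u) * (1 + 2 * u) ≤ Real.exp (2 * u) * Real.exp (2 * u) :=
          mul_le_mul (by linarith) (by linarith) (by positivity) (Real.exp_pos _).le
      _ = _ := by rw [← Real.exp_add]; ring_nf
  have h5 : 1 ≤ (1 + 2 * u) * (1 - u) := by nlinarith
  calc (1 : ℝ) ≤ ((1 + 2 * u) * (1 - u)) * ((1 + 2 * u) * (1 - u)) := by nlinarith
    _ = (1 + 2 * u) * (1 + 2 * u) * ((1 - u) * (1 - u)) := by ring
    _ ≤ _ := mul_le_mul he hl (mul_self_nonneg _) (Real.exp_pos _).le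

end Vale.Agent.P028
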