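import Vale.Agent.P028.Overlap.Local

/-! Integrals of the arcs and sifted counts in intervals. -/

noncomputable section

namespace Vale.Agent.P028

open Finset MeasureTheory

/-- The arc attached to the residue `a`. -/
def arc (γ : ℝ) (ψ : ℕ → ℝ) (q a : ℕ) : Set ℝ :=
  Set.Ioo (((a : ℝ) + γ - ψ q) / q) (((a : ℝ) + γ + ψ q) / q)

theorem bump_eq (γ : ℝ) (ψ : ℕ → ℝ) (A : ℤ) (B q : ℕ) (x : ℝ) :
    bump γ ψ A B q x =
      wConst B q * ∑ a ∈ admA A B q, (arc γ ψ q a).indicator (fun _ => (1 : ℝ)) x := rfl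

theorem measurableSet_arc (γ : ℝ) (ψ : ℕ → ℝ) (q a : ℕ) : MeasurableSet (arc γ ψ q a) :=
  measurableSet_Ioo

theorem integrable_indicator_arc (γ : ℝ) (ψ : ℕ → ℝ) (q a : ℕ) :
    Integrable ((arc γ ψ q a).indicator fun _ => (1 : ℝ)) :=
  (integrable_indicator_iff measurableSet_Ioo).2 (integrableOn_const measure_Ioo_lt_top.ne)

theorem measureReal_arc (γ : ℝ) {ψ : ℕ → ℝ} (q a : ℕ) (hψ : 0 ≤ ψ q) :
    volume.real (arc γ ψ q a) = 2 * ψ q / q := by
  rw [arc, Real.volume_real_Ioo, ← sub_div, max_eq_left (div_nonneg (by linarith) q.cast_nonneg)]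
  congr 1
  ring

theorem integral_bump_eq (γ : ℝ) {ψ : ℕ → ℝ} (A : ℤ) (B q : ℕ) (hψ : 0 ≤ ψ q) :
    ∫ x, bump γ ψ A B q x = wConst B q * ((admA A B q).card * (2 * ψ q / q)) := by
  simp only [bump_eq]
  rw [integral_const_mul, integral_finsetSum _ fun a _ => integrable_indicator_arc γ ψ q a]
  congr 1
  rw [← nsmul_eq_mul, ← sum_const]
  refine sum_congr rfl fun a _ => ?_
  rw [integral_indicator_const _ (measurableSet_arc γ ψ q a), smul_eq_mul, mul_one]
  exact measureReal_arc γ q a hψ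

theorem integral_bump_mul_eq (γ : ℝ) (ψ : ℕ → ℝ) (A : ℤ) (B : ℕ) (A' : ℤ) (B' q r : ℕ) :
    ∫ x, bump γ ψ A B q x * bump γ ψ A' B' r x =
      wConst B q * wConst B' r *
        ∑ z ∈ admA A B q ×ˢ admA A' B' r, volume.real (arc γ ψ q z.1 ∩ arc γ ψ r z.2) := by
  have e : ∀ x, bump γ ψ A B q x * bump γ ψ A' B' r x = wConst B q * wConst B' r *
      ∑ z ∈ admA A B q ×ˢ admA A' B' r,
        (arc γ ψ q z.1 ∩ arc γ ψ r z.2).indicator (fun _ => (1 : ℝ)) x := by
    intro x
    rw [bump_eq, bump_eq, mul_mul_mul_comm, sum_mul_sum, ← sum_product']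
    congr 1
    refine sum_congr rfl fun z _ => ?_
    exact (congrFun (Set.inter_indicator_one (s := arc γ ψ q z.1) (t := arc γ ψ r z.2)) x).symm
  simp only [e]
  rw [integral_const_mul, integral_finsetSum _ fun z _ =>
    (integrable_indicator_iff (measurableSet_Ioo.inter measurableSet_Ioo)).2
      (integrableOn_const (ne_top_of_le_ne_top measure_Ioo_lt_top.ne
        (measure_mono Set.inter_subset_left)))]
  congr 1
  refine sum_congr rfl fun z _ => ?_
  rw [integral_indicator_const _ ((measurableSet_arc γ ψ q z.1).inter (measurableSet_arc γ ψ r z.2)),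
    smul_eq_mul, mul_one]

theorem dist2_pos {ψ : ℕ → ℝ} {q r : ℕ} (hr : 0 < r) (hψq : 0 < ψ q) : 0 < dist2 ψ q r :=
  lt_max_of_lt_left (mul_pos hψq (by exact_mod_cast qd_pos hr))

theorem min_radius_eq {ψ : ℕ → ℝ} {q r : ℕ} (hq : 0 < q) (hr : 0 < r) (hψq : 0 < ψ q) :
    min (ψ q / q) (ψ r / r) = ψ q * ψ r / (Nat.gcd q r * dist2 ψ q r) := by
  have hD := dist2_pos (ψ := ψ) hr hψq (q := q)
  have hq' : (q : ℝ) = Nat.gcd q r * qd q r := by exact_mod_cast (gcd_mul_qd q r).symm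
  have hr' : (r : ℝ) = Nat.gcd q r * qd r q := by exact_mod_cast (gcd_mul_qd' q r).symm
  have hg : (0 : ℝ) < Nat.gcd q r := by exact_mod_cast Nat.gcd_pos_of_pos_left r hq
  have ha : (0 : ℝ) < qd q r := by exact_mod_cast qd_pos hq
  have hb : (0 : ℝ) < qd r q := by exact_mod_cast qd_pos hr
  rw [hq', hr']
  rcases le_total (ψ r * qd q r) (ψ q * qd r q) with h | h
  · have hm : dist2 ψ q r = ψ q * qd r q := max_eq_left h
    rw [hm, min_eq_right]
    · field_simp
    · rw [div_le_div_iff₀ (by positivity) (by positivity)]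
      linarith [mul_le_mul_of_nonneg_left h hg.le]
  · have hm : dist2 ψ q r = ψ r * qd q r := max_eq_right h
    rw [hm, min_eq_left]
    · have : ψ r ≠ 0 := by
        intro h0
        rw [h0, zero_mul] at h
        linarith [mul_pos hψq hb]
      field_simp
    · rw [div_le_div_iff₀ (by positivity) (by positivity)]
      linarith [mul_le_mul_of_nonneg_left h hg.le]

theorem measureReal_arc_inter_le {γ : ℝ} {ψ : ℕ → ℝ} {q r : ℕ} (hq : 0 < q) (hr : 0 < r)
    (hψq : 0 < ψ q) (hψr : 0 < ψ r) (a b : ℕ) :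
    volume.real (arc γ ψ q a ∩ arc γ ψ r b) ≤
      if (qd r q : ℤ) * a - (qd q r : ℤ) * b ∈ nearSet γ ψ q r then
        2 * (ψ q * ψ r / (Nat.gcd q r * dist2 ψ q r)) else 0 := by
  split_ifs with h
  · rw [← min_radius_eq hq hr hψq, mul_min_of_nonneg _ _ zero_le_two, ← mul_div_assoc,
      ← mul_div_assoc]
    exact le_min ((measureReal_mono Set.inter_subset_left measure_Ioo_lt_top.ne).trans
      (measureReal_arc γ q a hψq.le).le)
      ((measureReal_mono Set.inter_subset_right measure_Ioo_lt_top.ne).trans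
      (measureReal_arc γ r b hψr.le).le)
  · have he : arc γ ψ q a ∩ arc γ ψ r b = ∅ := by
      refine Set.eq_empty_of_forall_notMem fun x hx => h ?_
      obtain ⟨⟨h1, h2⟩, h3, h4⟩ := hx
      have hqR : (0 : ℝ) < q := by exact_mod_cast hq
      have hrR : (0 : ℝ) < r := by exact_mod_cast hr
      rw [div_lt_iff₀ hqR] at h1
      rw [lt_div_iff₀ hqR] at h2
      rw [div_lt_iff₀ hrR] at h3
      rw [lt_div_iff₀ hrR] at h4
      have ha : (0 : ℝ) < qd q r := by exact_mod_cast qd_pos hq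
      have hb : (0 : ℝ) < qd r q := by exact_mod_cast qd_pos hr
      have heq : (qd r q : ℝ) * (x * q) = (qd q r : ℝ) * (x * r) := by
        have hq' : (q : ℝ) = Nat.gcd q r * qd q r := by exact_mod_cast (gcd_mul_qd q r).symm
        have hr' : (r : ℝ) = Nat.gcd q r * qd r q := by exact_mod_cast (gcd_mul_qd' q r).symm
        rw [hq', hr']
        ring
      have e : |((((qd r q : ℤ) * a - (qd q r : ℤ) * b : ℤ)) : ℝ) + γ * mdiff q r| <
          2 * dist2 ψ q r := by
        have d1 : ψ q * qd r q ≤ dist2 ψ q r := le_max_left _ _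
        have d2 : ψ r * qd q r ≤ dist2 ψ q r := le_max_right _ _
        simp only [mdiff]
        push_cast
        rw [abs_lt]
        constructor <;>
          nlinarith [mul_lt_mul_of_pos_left h1 hb, mul_lt_mul_of_pos_left h2 hb,
            mul_lt_mul_of_pos_left h3 ha, mul_lt_mul_of_pos_left h4 ha]
      refine mem_filter.2 ⟨mem_Icc.2 ⟨?_, ?_⟩, e⟩
      · refine Int.le_of_lt_add_one ?_
        have := Int.floor_le (-(γ * mdiff q r) - 2 * dist2 ψ q r)
        have := (abs_lt.1 e).1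
        exact_mod_cast (by linarith :
          ((⌊-(γ * mdiff q r) - 2 * dist2 ψ q r⌋ : ℤ) : ℝ) <
            (((qd r q : ℤ) * a - (qd q r : ℤ) * b : ℤ) : ℝ) + 1)
      · refine Int.le_of_lt_add_one ?_
        have := Int.le_ceil (-(γ * mdiff q r) + 2 * dist2 ψ q r)
        have := (abs_lt.1 e).2
        exact_mod_cast (by linarith :
          (((qd r q : ℤ) * a - (qd q r : ℤ) * b : ℤ) : ℝ) <
            ((⌈-(γ * mdiff q r) + 2 * dist2 ψ q r⌉ : ℤ) : ℝ) + 1)
    simp [he]

/-- The overlap of two bumps is controlled by the coincidences. -/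
theorem integral_bump_mul_le_coin {γ : ℝ} {ψ : ℕ → ℝ} (A : ℤ) (B : ℕ) (A' : ℤ) (B' : ℕ) {q r : ℕ}
    (hq : 0 < q) (hr : 0 < r) (hψq : 0 < ψ q) (hψr : 0 < ψ r) :
    ∫ x, bump γ ψ A B q x * bump γ ψ A' B' r x ≤
      2 * (ψ q * ψ r / (Nat.gcd q r * dist2 ψ q r)) *
        ∑ n ∈ nearSet γ ψ q r, wConst B q * wConst B' r * (coinSet A B A' B' q r n).card := by
  set c := 2 * (ψ q * ψ r / (Nat.gcd q r * dist2 ψ q r)) with hc
  rw [integral_bump_mul_eq]
  refine le_trans (mul_le_mul_of_nonneg_left (sum_le_sum fun z _ =>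
    measureReal_arc_inter_le hq hr hψq hψr z.1 z.2)
      (mul_pos (wConst_pos B q) (wConst_pos B' r)).le) (le_of_eq ?_)
  rw [mul_sum, mul_sum]
  simp only [coinSet, card_filter, Nat.cast_sum, mul_sum]
  rw [sum_comm]
  refine sum_congr rfl fun z _ => ?_
  simp only [apply_ite (Nat.cast : ℕ → ℝ), Nat.cast_one, Nat.cast_zero, mul_ite, mul_one, mul_zero]
  rw [sum_ite_eq]
  split_ifs <;> ring

/-- Sifted counts in intervals, by inclusion and exclusion. -/
theorem sifted_count (P : Finset ℕ) (hP : ∀ p ∈ P, p.Prime) :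
    ∀ (α β : ℕ → ℤ), (∀ p ∈ P, ¬ (p : ℤ) ∣ β p) → ∀ s t : ℝ, s ≤ t →
      |(((Finset.Ioc ⌊s⌋ ⌊t⌋).filter
          (fun a => ∀ p ∈ P, ¬ (p : ℤ) ∣ a * β p + α p)).card : ℝ) -
        (t - s) * ∏ p ∈ P, (1 - 1 / (p : ℝ))| ≤ 2 ^ P.card := by
  induction P using Finset.induction_on with
  | empty =>
    intro α β _ s t hst
    simp only [notMem_empty, false_imp_iff, implies_true, filter_true, Int.card_Ioc, prod_empty,
      card_empty, pow_zero, mul_one]
    have h : (((⌊t⌋ - ⌊s⌋).toNat : ℕ) : ℝ) = (⌊t⌋ : ℝ) - ⌊s⌋ := by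
      have hh : ((⌊t⌋ - ⌊s⌋).toNat : ℤ) = ⌊t⌋ - ⌊s⌋ :=
        Int.toNat_of_nonneg (by have := Int.floor_le_floor hst; omega)
      exact_mod_cast hh
    rw [h, abs_le]
    constructor <;>
      linarith [Int.floor_le t, Int.floor_le s, Int.lt_floor_add_one t, Int.lt_floor_add_one s]
  | @insert p P hpP ih =>
    intro α β hβ s t hst
    have hp : p.Prime := hP p (mem_insert_self p P)
    have hP' : ∀ q ∈ P, q.Prime := fun q hq => hP q (mem_insert_of_mem hq)
    have hβ' : ∀ q ∈ P, ¬ (q : ℤ) ∣ β q := fun q hq => hβ q (mem_insert_of_mem hq)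
    have hp0 : (0 : ℝ) < p := by exact_mod_cast hp.pos
    -- the class which is removed at `p`
    obtain ⟨i, hi⟩ := card_eq_one.1 (card_root hp (hβ p (mem_insert_self p P)) (α p))
    have hic : (p : ℤ) ∣ β p * i + α p :=
      (mem_filter.1 (hi ▸ mem_singleton_self i : i ∈ _)).2
    have hroot : ∀ a : ℤ, (p : ℤ) ∣ a * β p + α p ↔ (p : ℤ) ∣ a - i := by
      intro a
      have e : a * β p + α p = (a - i) * β p + (β p * i + α p) := by ring
      rw [e, dvd_add_left hic]
      exact ⟨fun h => ((Nat.prime_iff_prime_int.1 hp).dvd_or_dvd h).resolve_right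
        (hβ p (mem_insert_self p P)), fun h => h.mul_right _⟩
    have hfl : ∀ (b : ℤ) (u : ℝ), (i : ℤ) + p * b ≤ ⌊u⌋ ↔ b ≤ ⌊(u - i) / p⌋ := by
      intro b u
      rw [Int.le_floor, Int.le_floor, le_div_iff₀ hp0]
      push_cast
      constructor <;> intro h <;> linarith
    set T := (Finset.Ioc ⌊s⌋ ⌊t⌋).filter (fun a => ∀ q ∈ P, ¬ (q : ℤ) ∣ a * β q + α q) with hT
    set T' := (Finset.Ioc ⌊(s - i) / p⌋ ⌊(t - i) / p⌋).filter
      (fun b => ∀ q ∈ P, ¬ (q : ℤ) ∣ b * ((p : ℤ) * β q) + ((i : ℤ) * β q + α q)) with hT'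
    have hbad : T.filter (fun a => (p : ℤ) ∣ a * β p + α p) =
        T'.image (fun b => (i : ℤ) + p * b) := by
      ext a
      simp only [mem_filter, mem_image, hT, hT', mem_Ioc]
      constructor
      · rintro ⟨⟨⟨h1, h2⟩, h3⟩, h4⟩
        obtain ⟨b, hb⟩ := (hroot a).1 h4
        obtain rfl : a = (i : ℤ) + p * b := by linarith
        refine ⟨b, ⟨⟨?_, (hfl b t).1 h2⟩, fun q hq hd => h3 q hq ?_⟩, rfl⟩
        · rw [← not_le, ← hfl b s, not_le]
          exact h1
        · convert hd using 1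
          ring
      · rintro ⟨b, ⟨⟨h1, h2⟩, h3⟩, rfl⟩
        refine ⟨⟨⟨?_, (hfl b t).2 h2⟩, fun q hq hd => h3 q hq ?_⟩, (hroot _).2 ⟨b, by ring⟩⟩
        · rw [← not_le, hfl b s, not_le]
          exact h1
        · convert hd using 1
          ring
    have hsplit : ((Finset.Ioc ⌊s⌋ ⌊t⌋).filter
        (fun a => ∀ q ∈ insert p P, ¬ (q : ℤ) ∣ a * β q + α q)).card + T'.card = T.card := by
      have e1 : (Finset.Ioc ⌊s⌋ ⌊t⌋).filter
          (fun a => ∀ q ∈ insert p P, ¬ (q : ℤ) ∣ a * β q + α q) =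
          T.filter (fun a => ¬ (p : ℤ) ∣ a * β p + α p) := by
        ext a
        simp only [hT, mem_filter, forall_mem_insert]
        tauto
      have e2 : T'.card = (T.filter (fun a => (p : ℤ) ∣ a * β p + α p)).card := by
        rw [hbad, card_image_of_injective]
        intro x y hxy
        simpa [hp.ne_zero] using hxy
      rw [e1, e2, add_comm]
      exact card_filter_add_card_filter_not _
    have hsR : (((Finset.Ioc ⌊s⌋ ⌊t⌋).filter
        (fun a => ∀ q ∈ insert p P, ¬ (q : ℤ) ∣ a * β q + α q)).card : ℝ) + T'.card = T.card := by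
      exact_mod_cast hsplit
    have hb' : ∀ q ∈ P, ¬ (q : ℤ) ∣ (p : ℤ) * β q := fun q hq h => by
      rcases (Nat.prime_iff_prime_int.1 (hP' q hq)).dvd_or_dvd h with h | h
      · have : q = p := (Nat.prime_dvd_prime_iff_eq (hP' q hq) hp).1 (by exact_mod_cast h)
        exact hpP (this ▸ hq)
      · exact hβ' q hq h
    have hA := abs_le.1 (ih hP' α β hβ' s t hst)
    have hB := abs_le.1 (ih hP' (fun q => (i : ℤ) * β q + α q) (fun q => (p : ℤ) * β q) hb'
      ((s - i) / p) ((t - i) / p) (div_le_div_of_nonneg_right (by linarith) hp0.le))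
    rw [← hT] at hA
    rw [← hT', show (t - (i : ℝ)) / p - (s - i) / p = (t - s) / p by ring] at hB
    rw [prod_insert hpP, card_insert_of_notMem hpP, pow_succ, abs_le]
    have e : (t - s) * ((1 - 1 / (p : ℝ)) * ∏ q ∈ P, (1 - 1 / (q : ℝ))) =
        (t - s) * ∏ q ∈ P, (1 - 1 / (q : ℝ)) - (t - s) / p * ∏ q ∈ P, (1 - 1 / (q : ℝ)) := by
      ring
    constructor <;> linarith [hA.1, hA.2, hB.1, hB.2]

end Vale.Agent.P028
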