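import Vale.Agent.P028.Defs
import Vale.Agent.P028.NumberLemmas

/-! Local factors and the count of coincidences of two deleted systems. -/

noncomputable section

namespace Vale.Agent.P028

open Finset

/-- The weight at the prime `p` of the residue `a` for the modulus `q`. -/
def lw (A : ℤ) (B q p : ℕ) (a : ℤ) : ℝ :=
  if p ∣ q then (if p ∣ B then 1 - 1 / (p : ℝ) else if (p : ℤ) ∣ a * B + A then 0 else 1) else 1

/-- The average of `lw` over the residues modulo `p`. -/
def lwAvg (q p : ℕ) : ℝ := if p ∣ q then 1 - 1 / (p : ℝ) else 1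

theorem one_sub_inv_prime_mem {p : ℕ} (hp : p.Prime) :
    1 / 2 ≤ 1 - 1 / (p : ℝ) ∧ 1 - 1 / (p : ℝ) ≤ 1 := by
  have h : (2 : ℝ) ≤ p := by exact_mod_cast hp.two_le
  have h1 : 1 / (p : ℝ) ≤ 1 / 2 := one_div_le_one_div_of_le two_pos h
  have h2 : (0 : ℝ) ≤ 1 / p := by positivity
  constructor <;> linarith

theorem lw_nonneg (A : ℤ) (B q : ℕ) {p : ℕ} (hp : p.Prime) (a : ℤ) : 0 ≤ lw A B q p a := by
  have := one_sub_inv_prime_mem hp
  unfold lw
  split_ifs <;> linarith [this.1]

theorem lw_le_one (A : ℤ) (B q : ℕ) {p : ℕ} (hp : p.Prime) (a : ℤ) : lw A B q p a ≤ 1 := by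
  have := one_sub_inv_prime_mem hp
  unfold lw
  split_ifs <;> linarith [this.2]

theorem lwAvg_pos (q : ℕ) {p : ℕ} (hp : p.Prime) : 0 < lwAvg q p := by
  have := one_sub_inv_prime_mem hp
  unfold lwAvg
  split_ifs <;> linarith [this.1]

theorem lw_congr (A : ℤ) (B q p : ℕ) {a b : ℤ} (h : (p : ℤ) ∣ a - b) :
    lw A B q p a = lw A B q p b := by
  have e : (p : ℤ) ∣ a * B + A ↔ (p : ℤ) ∣ b * B + A :=
    dvd_iff_dvd_of_dvd_sub <| by
      have : a * B + A - (b * B + A) = (a - b) * B := by ring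
      rw [this]
      exact h.mul_right _
  simp only [lw, e]

theorem lw_emod (A : ℤ) (B q : ℕ) {p : ℕ} (hp : p.Prime) (a : ℤ) :
    lw A B q p (((a % (p : ℤ)).toNat : ℕ) : ℤ) = lw A B q p a := by
  refine lw_congr A B q p ?_
  rw [Int.toNat_of_nonneg (Int.emod_nonneg _ (by exact_mod_cast hp.ne_zero))]
  exact ⟨-(a / (p : ℤ)), by have := Int.mul_ediv_add_emod a (p : ℤ); linarith⟩

/-- A linear congruence has exactly one root. -/
theorem card_root {p : ℕ} (hp : p.Prime) {u : ℤ} (hu : ¬ (p : ℤ) ∣ u) (v : ℤ) :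
    ((range p).filter fun i : ℕ => (p : ℤ) ∣ u * i + v).card = 1 := by
  have : Fact p.Prime := ⟨hp⟩
  have hu' : (u : ZMod p) ≠ 0 := fun h => hu ((ZMod.intCast_zmod_eq_zero_iff_dvd u p).1 h)
  rw [card_eq_one]
  refine ⟨(-(v : ZMod p) / u).val, ?_⟩
  ext i
  simp only [mem_filter, mem_range, mem_singleton]
  constructor
  · rintro ⟨hi, hd⟩
    have := (ZMod.intCast_zmod_eq_zero_iff_dvd _ p).2 hd
    push_cast at this
    have e : (i : ZMod p) = -(v : ZMod p) / u := by
      rw [eq_div_iff hu']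
      linear_combination this
    rw [← e, ZMod.val_natCast_of_lt hi]
  · rintro rfl
    refine ⟨ZMod.val_lt _, (ZMod.intCast_zmod_eq_zero_iff_dvd _ p).1 ?_⟩
    push_cast
    rw [ZMod.natCast_zmod_val]
    field_simp
    ring

theorem sum_lw_affine (A : ℤ) (B q : ℕ) {p : ℕ} (hp : p.Prime) {c : ℤ} (hc : ¬ (p : ℤ) ∣ c)
    (a0 : ℤ) : ∑ i ∈ range p, lw A B q p (a0 + c * i) = p * lwAvg q p := by
  have hp0 : (p : ℝ) ≠ 0 := by exact_mod_cast hp.ne_zero
  by_cases hq : p ∣ q
  · by_cases hB : p ∣ B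
    · simp [lw, lwAvg, hq, hB]
      ring
    · have hu : ¬ (p : ℤ) ∣ c * B := fun h => by
        rcases (Nat.prime_iff_prime_int.1 hp).dvd_or_dvd h with h | h
        · exact hc h
        · exact hB (by exact_mod_cast h)
      have h1 := card_root hp hu (a0 * B + A)
      have e : ∀ i : ℕ, (a0 + c * i) * (B : ℤ) + A = c * B * i + (a0 * B + A) := fun i => by ring
      simp only [lw, lwAvg, hq, hB, if_true, if_false, e]
      rw [sum_ite, sum_const_zero, zero_add, sum_const, nsmul_one, filter_not,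
        card_sdiff_of_subset (filter_subset _ _), h1, card_range, Nat.cast_sub hp.one_le]
      field_simp
      push_cast
      ring
  · simp [lw, lwAvg, hq]

theorem sum_lw (A : ℤ) (B q : ℕ) {p : ℕ} (hp : p.Prime) :
    ∑ i ∈ range p, lw A B q p i = p * lwAvg q p := by
  have h := sum_lw_affine A B q hp (c := 1) (fun h => hp.not_dvd_one (by exact_mod_cast h)) 0
  simpa using h

theorem mem_primeFactors_of {q p : ℕ} (hq : 0 < q) (hp : p.Prime) (h : p ∣ q) :
    p ∈ q.primeFactors :=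
  Nat.mem_primeFactors.2 ⟨hp, h, hq.ne'⟩

theorem prod_lw_eq (A : ℤ) (B q a : ℕ) :
    ∏ p ∈ q.primeFactors, lw A B q p a =
      if (∀ p ∈ delPrimes B q, ¬ (p : ℤ) ∣ (a : ℤ) * B + A) then wConst B q else 0 := by
  split_ifs with h
  · rw [wConst, prod_filter]
    refine prod_congr rfl fun p hp => ?_
    have hq : p ∣ q := Nat.dvd_of_mem_primeFactors hp
    by_cases hB : p ∣ B
    · simp [lw, hq, hB]
    · simp [lw, hq, hB, h p (mem_filter.2 ⟨hp, hB⟩)]
  · simp only [not_forall, not_not] at h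
    obtain ⟨p, hp, hd⟩ := h
    obtain ⟨hp, hB⟩ := mem_filter.1 hp
    exact prod_eq_zero hp (by simp [lw, Nat.dvd_of_mem_primeFactors hp, hB, hd])

theorem wConst_pos (B q : ℕ) : 0 < wConst B q :=
  prod_pos fun p hp => by
    linarith [(one_sub_inv_prime_mem (Nat.prime_of_mem_primeFactors (mem_filter.1 hp).1)).1]

theorem wConst_le_one (B q : ℕ) : wConst B q ≤ 1 :=
  prod_le_one
    (fun p hp => by
      linarith [(one_sub_inv_prime_mem (Nat.prime_of_mem_primeFactors (mem_filter.1 hp).1)).1])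
    fun p hp => (one_sub_inv_prime_mem (Nat.prime_of_mem_primeFactors (mem_filter.1 hp).1)).2

theorem totient_eq_prod (q : ℕ) :
    (Nat.totient q : ℝ) = q * ∏ p ∈ q.primeFactors, (1 - 1 / (p : ℝ)) := by
  have h := congrArg (fun x : ℚ => (x : ℝ)) (Nat.totient_eq_mul_prod_factors q)
  simpa [one_div] using h

theorem totient_div_eq {q : ℕ} (hq : 0 < q) :
    (Nat.totient q : ℝ) / q = ∏ p ∈ q.primeFactors, lwAvg q p := by
  rw [totient_eq_prod]
  have e : ∀ p ∈ q.primeFactors, lwAvg q p = 1 - 1 / (p : ℝ) := fun p hp => by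
    simp [lwAvg, Nat.dvd_of_mem_primeFactors hp]
  rw [prod_congr rfl e]
  have : (q : ℝ) ≠ 0 := by exact_mod_cast hq.ne'
  field_simp

/-- The admissible residues, weighted, number `φ(q)`. -/
theorem wConst_mul_card_admA (A : ℤ) (B q : ℕ) :
    wConst B q * (admA A B q).card = Nat.totient q := by
  obtain ⟨k, hk⟩ := Nat.prod_primeFactors_dvd q
  have h := sum_range_prod_mod q.primeFactors (fun p hp => Nat.prime_of_mem_primeFactors hp)
    (fun p i => lw A B q p i) k
  rw [mul_comm, ← hk] at h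
  have e : ∀ t, ∏ p ∈ q.primeFactors, lw A B q p ((t % p : ℕ) : ℤ) =
      ∏ p ∈ q.primeFactors, lw A B q p t := fun t =>
    prod_congr rfl fun p hp => lw_congr A B q p
      ⟨-((t / p : ℕ) : ℤ), by
        have : (t : ℤ) = ((t % p : ℕ) : ℤ) + (p : ℤ) * ((t / p : ℕ) : ℤ) := by
          exact_mod_cast (Nat.mod_add_div t p).symm
        linarith⟩
  simp only [e, prod_lw_eq] at h
  rw [← sum_filter, sum_const, nsmul_eq_mul] at h
  rw [mul_comm, admA]
  refine h.trans ?_
  rw [prod_congr rfl fun p hp => sum_lw A B q (Nat.prime_of_mem_primeFactors hp),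
    prod_mul_distrib, totient_eq_prod, ← mul_assoc]
  congr 1
  · have : (q : ℝ) = ((∏ p ∈ q.primeFactors, p) * k : ℕ) := by rw [← hk]
    rw [this]
    push_cast
    ring
  · exact prod_congr rfl fun p hp => by simp [lwAvg, Nat.dvd_of_mem_primeFactors hp]

/-- On admissible residues the weight is below any partial product of local weights. -/
theorem wConst_le_prod_lw {A : ℤ} {B q a : ℕ} (hq : 0 < q) (ha : a ∈ admA A B q) (T : Finset ℕ)
    (hT : ∀ p ∈ T, p.Prime) : wConst B q ≤ ∏ p ∈ T, lw A B q p a := by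
  obtain ⟨-, h⟩ := mem_filter.1 ha
  have h1 := prod_lw_eq A B q a
  rw [if_pos h] at h1
  rw [← h1]
  have e : ∏ p ∈ T, lw A B q p a = ∏ p ∈ T.filter (fun p => p ∣ q), lw A B q p a := by
    rw [prod_filter]
    refine prod_congr rfl fun p _ => ?_
    split_ifs with hd
    · rfl
    · simp [lw, hd]
  rw [e]
  exact prod_le_prod_of_subset_of_le_one
    (fun p hp => mem_primeFactors_of hq (hT p (mem_filter.1 hp).1) (mem_filter.1 hp).2)
    (fun p hp => lw_nonneg A B q (Nat.prime_of_mem_primeFactors hp) _)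
    fun p hp _ => lw_le_one A B q (Nat.prime_of_mem_primeFactors hp) _

/-- The pairs of admissible residues with coincidence number `n`. -/
def coinSet (A : ℤ) (B : ℕ) (A' : ℤ) (B' q r : ℕ) (n : ℤ) : Finset (ℕ × ℕ) :=
  (admA A B q ×ˢ admA A' B' r).filter
    (fun z : ℕ × ℕ => (qd r q : ℤ) * z.1 - (qd q r : ℤ) * z.2 = n)

/-- The average local weight along the line through `(a₀, b₀)`. -/
def lineAvg (A : ℤ) (B : ℕ) (A' : ℤ) (B' q r : ℕ) (a0 b0 : ℤ) (p : ℕ) : ℝ :=
  (∑ i ∈ range p, lw A B q p (a0 + (qd q r : ℤ) * i) * lw A' B' r p (b0 + (qd r q : ℤ) * i)) / p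

theorem gcd_mul_qd (q r : ℕ) : Nat.gcd q r * qd q r = q :=
  Nat.mul_div_cancel' (Nat.gcd_dvd_left q r)

theorem gcd_mul_qd' (q r : ℕ) : Nat.gcd q r * qd r q = r := by
  rw [Nat.gcd_comm]
  exact gcd_mul_qd r q

theorem qd_pos {q r : ℕ} (hq : 0 < q) : 0 < qd q r := by
  have h := gcd_mul_qd q r
  rcases Nat.eq_zero_or_pos (qd q r) with h0 | h0
  · simp [h0] at h
    omega
  · exact h0

theorem coprime_qd {q r : ℕ} (hq : 0 < q) : Nat.Coprime (qd q r) (qd r q) := by
  have := Nat.coprime_div_gcd_div_gcd (m := q) (n := r) (Nat.gcd_pos_of_pos_left r hq)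
  simpa [qd, Nat.gcd_comm r q] using this

theorem dvd_qd_of_not_dvd_gcd {q r p : ℕ} (hp : p.Prime) (hq : p ∣ q)
    (hg : ¬ p ∣ Nat.gcd q r) : p ∣ qd q r := by
  rw [← gcd_mul_qd q r] at hq
  exact (hp.dvd_mul.1 hq).resolve_left hg

/-- Outside `gcd q r` the local weights are constant on the line. -/
theorem lw_line_eq (A : ℤ) (B : ℕ) {q r p : ℕ} (hp : p.Prime) (hg : ¬ p ∣ Nat.gcd q r)
    (a0 t : ℤ) : lw A B q p (a0 + (qd q r : ℤ) * t) = lw A B q p a0 := by
  by_cases hq : p ∣ q
  · refine lw_congr A B q p ?_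
    rw [add_sub_cancel_left]
    exact (Int.natCast_dvd_natCast.2 (dvd_qd_of_not_dvd_gcd hp hq hg)).mul_right t
  · simp [lw, hq]

theorem coinSet_card_le {A : ℤ} {B : ℕ} {A' : ℤ} {B' q r : ℕ} {n : ℤ} (hq : 0 < q) (hr : 0 < r)
    {a0 b0 : ℕ} (h0 : (a0, b0) ∈ coinSet A B A' B' q r n) (T : Finset ℕ)
    (hT : ∀ p ∈ T, p.Prime) :
    wConst B q * wConst B' r * (coinSet A B A' B' q r n).card ≤
      Nat.gcd q r * ∏ p ∈ T, lineAvg A B A' B' q r a0 b0 p := by
  set g := Nat.gcd q r with hg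
  have hgpos : 0 < g := Nat.gcd_pos_of_pos_left r hq
  set F : ℕ → ℝ := fun i => ∏ p ∈ T,
    lw A B q p ((a0 : ℤ) + (qd q r : ℤ) * i) * lw A' B' r p ((b0 : ℤ) + (qd r q : ℤ) * i)
    with hF
  have hF0 : ∀ i, 0 ≤ F i := fun i =>
    prod_nonneg fun p hp => mul_nonneg (lw_nonneg _ _ _ (hT p hp) _) (lw_nonneg _ _ _ (hT p hp) _)
  have hq'0 : (qd q r : ℤ) ≠ 0 := by exact_mod_cast (qd_pos hq).ne'
  set tz : ℕ × ℕ → ℤ := fun z => ((z.1 : ℤ) - a0) / (qd q r : ℤ) with htz
  have hline : ∀ z ∈ coinSet A B A' B' q r n,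
      (z.1 : ℤ) = a0 + (qd q r : ℤ) * tz z ∧ (z.2 : ℤ) = b0 + (qd r q : ℤ) * tz z := by
    intro z hz
    have e1 := (mem_filter.1 hz).2
    have e2 := (mem_filter.1 h0).2
    simp only at e2
    have hd : (qd q r : ℤ) ∣ (z.1 : ℤ) - a0 := by
      refine Int.dvd_of_dvd_mul_right_of_gcd_one (b := (qd r q : ℤ))
        ⟨(z.2 : ℤ) - b0, by linarith⟩ ?_
      rw [Int.gcd_natCast_natCast]
      exact coprime_qd hq
    have e3 : (z.1 : ℤ) - a0 = (qd q r : ℤ) * tz z := (Int.mul_ediv_cancel' hd).symm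
    refine ⟨by linarith, ?_⟩
    have : (qd q r : ℤ) * ((z.2 : ℤ) - b0 - (qd r q : ℤ) * tz z) = 0 := by
      linear_combination (-1 : ℤ) * e1 + e2 + (qd r q : ℤ) * e3
    rcases mul_eq_zero.1 this with h | h
    · exact absurd h hq'0
    · linarith
  set ti : ℕ × ℕ → ℕ := fun z => (tz z % (g : ℤ)).toNat with hti
  have hti' : ∀ z, (ti z : ℤ) = tz z % (g : ℤ) := fun z =>
    Int.toNat_of_nonneg (Int.emod_nonneg _ (by exact_mod_cast hgpos.ne'))
  have hmem : ∀ z, ti z ∈ range g := fun z => by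
    have := Int.emod_lt_of_pos (tz z) (by exact_mod_cast hgpos : (0 : ℤ) < g)
    rw [← hti' z] at this
    exact mem_range.2 (by exact_mod_cast this)
  have hle : ∀ z ∈ coinSet A B A' B' q r n, wConst B q * wConst B' r ≤ F (ti z) := by
    intro z hz
    obtain ⟨ha, hb⟩ := mem_product.1 (mem_filter.1 hz).1
    obtain ⟨l1, l2⟩ := hline z hz
    have h1 := wConst_le_prod_lw hq ha T hT
    have h2 := wConst_le_prod_lw hr hb T hT
    calc wConst B q * wConst B' r ≤
        (∏ p ∈ T, lw A B q p z.1) * ∏ p ∈ T, lw A' B' r p z.2 :=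
          mul_le_mul h1 h2 (wConst_pos _ _).le ((wConst_pos _ _).le.trans h1)
      _ = F (ti z) := by
        rw [← prod_mul_distrib]
        refine prod_congr rfl fun p hp => ?_
        rw [l1, l2, hti' z]
        by_cases hpg : p ∣ g
        · have hd : (p : ℤ) ∣ tz z - tz z % (g : ℤ) :=
            (Int.natCast_dvd_natCast.2 hpg).trans
              ⟨tz z / (g : ℤ), by
                have := Int.mul_ediv_add_emod (tz z) (g : ℤ)
                linarith⟩
          congr 1 <;>
          · refine lw_congr _ _ _ p ?_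
            rw [add_sub_add_left_eq_sub, ← mul_sub]
            exact hd.mul_left _
        · have hpg' : ¬ p ∣ Nat.gcd r q := by rwa [Nat.gcd_comm]
          rw [lw_line_eq A B (hT p hp) hpg, lw_line_eq A B (hT p hp) hpg,
            lw_line_eq A' B' (hT p hp) hpg', lw_line_eq A' B' (hT p hp) hpg']
  have hinj : Set.InjOn ti (coinSet A B A' B' q r n : Set (ℕ × ℕ)) := by
    intro z hz z' hz' he
    obtain ⟨l1, l2⟩ := hline z hz
    obtain ⟨l1', l2'⟩ := hline z' hz'
    have he' : tz z % (g : ℤ) = tz z' % (g : ℤ) := by rw [← hti' z, ← hti' z', he]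
    obtain ⟨d, hd⟩ := Int.ModEq.dvd (show tz z' ≡ tz z [ZMOD (g : ℤ)] from he'.symm)
    have hza : z.1 < q := mem_range.1 (mem_filter.1 (mem_product.1 (mem_filter.1 hz).1).1).1
    have hzb : z'.1 < q := mem_range.1 (mem_filter.1 (mem_product.1 (mem_filter.1 hz').1).1).1
    have hgq : (g : ℤ) * (qd q r : ℤ) = q := by exact_mod_cast gcd_mul_qd q r
    have e : (z.1 : ℤ) - z'.1 = (q : ℤ) * d := by
      rw [← hgq]
      linear_combination l1 - l1' + (qd q r : ℤ) * hd
    have ht : tz z = tz z' := by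
      have hd0 : d = 0 := by
        have h1 : (q : ℤ) * d < q * 1 := by rw [← e]; omega
        have h2 : (q : ℤ) * (-1) < q * d := by rw [← e]; omega
        have := lt_of_mul_lt_mul_left h1 (by omega)
        have := lt_of_mul_lt_mul_left h2 (by omega)
        omega
      rw [hd0, mul_zero] at hd
      linarith
    rw [ht] at l1 l2
    exact Prod.ext (by omega) (by omega)
  calc wConst B q * wConst B' r * (coinSet A B A' B' q r n).card =
      ∑ _z ∈ coinSet A B A' B' q r n, wConst B q * wConst B' r := by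
        rw [sum_const, nsmul_eq_mul, mul_comm]
    _ ≤ ∑ z ∈ coinSet A B A' B' q r n, F (ti z) := sum_le_sum hle
    _ = ∑ i ∈ (coinSet A B A' B' q r n).image ti, F i := (sum_image hinj).symm
    _ ≤ ∑ i ∈ range g, F i :=
        sum_le_sum_of_subset_of_nonneg
          (fun i hi => by obtain ⟨z, _, rfl⟩ := mem_image.1 hi; exact hmem z) fun i _ _ => hF0 i
    _ = g * ∏ p ∈ T, lineAvg A B A' B' q r a0 b0 p := by
        set G := T.filter (fun p => p ∣ g) with hG
        set G' := T.filter (fun p => ¬ p ∣ g) with hG'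
        have hGp : ∀ p ∈ G, p.Prime := fun p hp => hT p (mem_filter.1 hp).1
        obtain ⟨k, hk⟩ : ∏ p ∈ G, p ∣ g :=
          (prod_dvd_prod_of_subset _ _ _ fun p hp =>
            mem_primeFactors_of hgpos (hGp p hp) (mem_filter.1 hp).2).trans
            (Nat.prod_primeFactors_dvd g)
        set W : ℕ → ℤ → ℝ := fun p t =>
          lw A B q p ((a0 : ℤ) + (qd q r : ℤ) * t) * lw A' B' r p ((b0 : ℤ) + (qd r q : ℤ) * t)
        have hsplit : ∀ i : ℕ, F i = (∏ p ∈ G', W p 0) * ∏ p ∈ G, W p ((i % p : ℕ) : ℤ) := by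
          intro i
          simp only [hF]
          rw [mul_comm (∏ p ∈ G', W p 0)]
          rw [← prod_filter_mul_prod_filter_not T (fun p => p ∣ g)]
          congr 1
          · refine prod_congr rfl fun p hp => ?_
            have hd : (p : ℤ) ∣ (i : ℤ) - ((i % p : ℕ) : ℤ) :=
              ⟨((i / p : ℕ) : ℤ), by
                have : (i : ℤ) = ((i % p : ℕ) : ℤ) + (p : ℤ) * ((i / p : ℕ) : ℤ) := by
                  exact_mod_cast (Nat.mod_add_div i p).symm
                linarith⟩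
            simp only [W]
            congr 1 <;>
            · refine lw_congr _ _ _ p ?_
              rw [add_sub_add_left_eq_sub, ← mul_sub]
              exact hd.mul_left _
          · refine prod_congr rfl fun p hp => ?_
            obtain ⟨hpT, hpg⟩ := mem_filter.1 hp
            have hpg' : ¬ p ∣ Nat.gcd r q := by rwa [Nat.gcd_comm]
            simp only [W, mul_zero, add_zero]
            rw [lw_line_eq A B (hT p hpT) hpg, lw_line_eq A' B' (hT p hpT) hpg']
        have hsum := sum_range_prod_mod G hGp (fun p i => W p (i : ℕ)) k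
        rw [mul_comm k, ← hk] at hsum
        rw [sum_congr rfl fun i _ => hsplit i, ← mul_sum, hsum,
          ← prod_filter_mul_prod_filter_not T (fun p => p ∣ g) (lineAvg A B A' B' q r a0 b0)]
        have eG' : ∀ p ∈ G', lineAvg A B A' B' q r a0 b0 p = W p 0 := by
          intro p hp
          obtain ⟨hpT, hpg⟩ := mem_filter.1 hp
          have hpg' : ¬ p ∣ Nat.gcd r q := by rwa [Nat.gcd_comm]
          have hp0 : (p : ℝ) ≠ 0 := by exact_mod_cast (hT p hpT).ne_zero
          simp only [lineAvg, W, mul_zero, add_zero, lw_line_eq A B (hT p hpT) hpg,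
            lw_line_eq A' B' (hT p hpT) hpg', sum_const, card_range, nsmul_eq_mul]
          field_simp
        have eG : ∀ p ∈ G, ∑ i ∈ range p, W p (i : ℕ) = p * lineAvg A B A' B' q r a0 b0 p := by
          intro p hp
          have hp0 : (p : ℝ) ≠ 0 := by exact_mod_cast (hGp p hp).ne_zero
          simp only [lineAvg, W]
          field_simp
        rw [prod_congr rfl eG, prod_congr rfl eG', prod_mul_distrib (s := G) (f := fun p => (p : ℝ))]
        have : (g : ℝ) = (∏ p ∈ G, (p : ℝ)) * k := by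
          rw [hk]
          push_cast
          ring
        rw [this]
        ring

end Vale.Agent.P028
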